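import Mathlib.Algebra.Homology.DerivedCategory.TStructure
import Mathlib.Algebra.Homology.DerivedCategory.FullyFaithful
import Mathlib.Algebra.Homology.ShortComplex.ExactFunctor

/-! # Bounded above complexes which resolve an object (block B11) -/

open CategoryTheory Limits

universe w v u

namespace Vale.Agent.P287Z.O.H443

variable {C : Type u} [Category.{v} C] [Abelian C] [HasDerivedCategory.{w} C]

/-- A complex `… → K^{n-1} → K^n → 0` with an exact sequence
`… → K^{n-1} → K^n → M → 0` is isomorphic in the derived category to `M` in degree `n`. -/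
theorem single_of_exact (K : CochainComplex C ℤ) (m n : ℤ) (hmn : m + 1 = n)
    [K.IsStrictlyLE n] (M : C) (ε : K.X n ⟶ M) [Epi ε] (hex : ∀ k < n, K.ExactAt k)
    (w : K.d m n ≫ ε = 0) (h0 : (ShortComplex.mk (K.d m n) ε w).Exact) :
    Nonempty (DerivedCategory.Q.obj K ≅ (DerivedCategory.singleFunctor C n).obj M) := by
  have hGE : K.IsGE n := (CochainComplex.isGE_iff K n).mpr hex
  obtain ⟨A, ⟨e⟩⟩ :=
    DerivedCategory.exists_iso_singleFunctor_obj_of_isGE_of_isLE (DerivedCategory.Q.obj K) n
  have h1 : K.d n (n + 1) = 0 := (K.isZero_of_isStrictlyLE n (n + 1) (by lia)).eq_of_tgt _ _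
  have e1 : K.homology n ≅ K.opcycles n :=
    K.isoHomologyι n (n + 1) (by simp) h1
  have e2 : K.opcycles n ≅ M :=
    (K.opcyclesIsCokernel m n (by simp; lia)).coconePointUniqueUpToIso h0.gIsCokernel
  have e3 : A ≅ K.homology n :=
    ((DerivedCategory.singleFunctorCompHomologyFunctorIso C n).app A).symm ≪≫
      (DerivedCategory.homologyFunctor C n).mapIso e.symm ≪≫
      (DerivedCategory.homologyFunctorFactors C n).app K
  exact ⟨e ≪≫ (DerivedCategory.singleFunctor C n).mapIso (e3 ≪≫ e1 ≪≫ e2)⟩

end Vale.Agent.P287Z.O.H443
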