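import Vale.Agent.P287Z.O.H826.Kos

/-! # Koszul exactness (Euler homotopy) and the Shamash-Tate resolution (block K3) -/

open MvPolynomial
open scoped symmDiff

namespace Vale.Agent.P287Z.O.H443

open H826

section gen

variable {ι : Type} [LinearOrder ι] [Fintype ι] {R : Type} [CommRing R]

/-- the Koszul operator on functions -/
def kop (l q : ι → R) (z : Finset ι → R) : Finset ι → R := fun I =>
  ∑ a, sg R a I * (if a ∈ I then q a else l a) * z (I ∆ {a})

theorem sd_sd (I : Finset ι) (a : ι) : (I ∆ {a}) ∆ {a} = I := symmDiff_symmDiff_cancel_right _ _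

theorem kz_mulVec (l q : ι → R) (z : Finset ι → R) : (kz l q).mulVec z = kop l q z := by
  funext I
  unfold Matrix.mulVec dotProduct kz kop
  simp only [Finset.sum_mul]
  rw [Finset.sum_comm]
  refine Finset.sum_congr rfl fun a _ => ?_
  rw [Finset.sum_eq_single (I ∆ {a})]
  · rw [if_pos (sd_sd I a).symm, sg_ge I (lt_irrefl a)]
    by_cases h : a ∈ I
    · rw [if_neg (by rw [mem_sd_self]; exact not_not.mpr h), if_pos h]
    · rw [if_pos (by rw [mem_sd_self]; exact h), if_neg h]
  · intro J _ hJ
    rw [if_neg, zero_mul]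
    intro h
    exact hJ (by rw [h, sd_sd])
  · intro h
    exact absurd (Finset.mem_univ _) h

theorem card_sd_mem {a : ι} {I : Finset ι} (h : a ∈ I) : (I ∆ {a}).card + 1 = I.card := by
  rw [sd_mem h, Finset.card_erase_of_mem h]
  have := Finset.card_pos.mpr ⟨a, h⟩
  omega

theorem card_sd_notMem {a : ι} {I : Finset ι} (h : a ∉ I) : (I ∆ {a}).card = I.card + 1 := by
  rw [sd_notMem h, Finset.card_insert_of_notMem h]

theorem kop_add (l q : ι → R) (z w : Finset ι → R) : kop l q (z + w) = kop l q z + kop l q w := by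
  funext I
  simp only [kop, Pi.add_apply, mul_add, Finset.sum_add_distrib]

theorem kop_sub (l q : ι → R) (z w : Finset ι → R) : kop l q (z - w) = kop l q z - kop l q w := by
  funext I
  simp only [kop, Pi.sub_apply, mul_sub, Finset.sum_sub_distrib]

theorem kop_kop [IsDomain R] [CharZero R] (l q : ι → R) (z : Finset ι → R) :
    kop l q (kop l q z) = (∑ a, l a * q a) • z := by
  rw [← kz_mulVec, ← kz_mulVec, Matrix.mulVec_mulVec, kz_sq, Matrix.smul_mulVec, Matrix.one_mulVec]

theorem sg_comm {a b : ι} (I : Finset ι) (h : a ≠ b) :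
    sg R a I * sg R b (I ∆ {a}) = - (sg R b I * sg R a (I ∆ {b})) := by
  rcases lt_or_gt_of_ne h with h | h
  · rw [sg_lt I h, sg_ge I (not_lt.mpr h.le)]
    ring
  · rw [sg_lt I h, sg_ge I (not_lt.mpr h.le)]
    ring

end gen

section euler

variable {ι : Type} [LinearOrder ι] [Fintype ι] {σ : Type}

/-- the homotopy -/
noncomputable def hop (c : ι → σ) (z : Finset ι → MvPolynomial σ ℂ) : Finset ι → MvPolynomial σ ℂ :=
  fun I => ∑ a, if a ∈ I then sg _ a I * pderiv (c a) (z (I ∆ {a})) else 0

theorem pd_sg (c : σ) (a : ι) (I : Finset ι) (f : MvPolynomial σ ℂ) :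
    pderiv c (sg _ a I * f) = sg _ a I * pderiv c f := by
  unfold sg
  rcases neg_one_pow_eq_or (MvPolynomial σ ℂ) (Finset.filter (· < a) I).card with h | h <;>
    rw [h] <;> simp

theorem euler (c : ι → σ) (hc : Function.Injective c) (z : Finset ι → MvPolynomial σ ℂ)
    (I : Finset ι) : kop (fun a => X (c a)) 0 (hop c z) I + hop c (kop (fun a => X (c a)) 0 z) I =
      (∑ a, X (c a) * pderiv (c a) (z I)) + (I.card : MvPolynomial σ ℂ) * z I := by
  let A : ι → ι → MvPolynomial σ ℂ := fun a b =>
    if a ∉ I ∧ b ∈ I ∆ {a} then sg _ a I * sg _ b (I ∆ {a}) *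
      (X (c a) * pderiv (c b) (z ((I ∆ {a}) ∆ {b}))) else 0
  let B : ι → ι → MvPolynomial σ ℂ := fun a b =>
    if b ∈ I ∧ a ∉ I ∆ {b} then sg _ b I * sg _ a (I ∆ {b}) *
      pderiv (c b) (X (c a) * z ((I ∆ {b}) ∆ {a})) else 0
  have h1 : kop (fun a => X (c a)) 0 (hop c z) I = ∑ a, ∑ b, A a b := by
    unfold kop hop
    refine Finset.sum_congr rfl fun a _ => ?_
    rw [Finset.mul_sum]
    refine Finset.sum_congr rfl fun b _ => ?_
    simp only [A, Pi.zero_apply]
    by_cases ha : a ∈ I
    · simp [ha]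
    · by_cases hb : b ∈ I ∆ {a}
      · simp only [ha, hb, if_false, if_true, not_false_eq_true, and_self]
        ring
      · simp [hb]
  have h2 : hop c (kop (fun a => X (c a)) 0 z) I = ∑ a, ∑ b, B a b := by
    rw [Finset.sum_comm]
    unfold kop hop
    refine Finset.sum_congr rfl fun b _ => ?_
    by_cases hb : b ∈ I
    · rw [if_pos hb, map_sum, Finset.mul_sum]
      refine Finset.sum_congr rfl fun a _ => ?_
      simp only [B, Pi.zero_apply]
      by_cases ha : a ∈ I ∆ {b}
      · simp [ha]
      · simp only [ha, hb, if_false, if_true, not_false_eq_true, and_self]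
        rw [mul_assoc (sg _ a _), pd_sg, mul_assoc]
    · simp only [hb, if_false, B, false_and, Finset.sum_const_zero]
  rw [h1, h2, ← Finset.sum_add_distrib]
  have h3 : ∀ a, (∑ b, A a b) + ∑ b, B a b =
      X (c a) * pderiv (c a) (z I) + if a ∈ I then z I else 0 := by
    intro a
    rw [← Finset.sum_add_distrib, Finset.sum_eq_single a]
    · simp only [A, B]
      have e1 : a ∈ I ∆ {a} ↔ a ∉ I := mem_sd_self
      by_cases ha : a ∈ I
      · have e2 : a ∉ I ∆ {a} := fun h => (e1.mp h) ha
        rw [if_neg (fun h => h.1 ha), if_pos ⟨ha, e2⟩, if_pos ha, sd_sd, sg_ge I (lt_irrefl a),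
          sg_mul, one_mul, zero_add, Derivation.leibniz, pderiv_X_self]
        simp [add_comm, mul_comm]
      · rw [if_pos ⟨ha, e1.mpr ha⟩, if_neg (fun h => ha h.1), if_neg ha, sd_sd,
          sg_ge I (lt_irrefl a), sg_mul, one_mul]
    · intro b _ hb
      simp only [A, B]
      have e1 : b ∈ I ∆ {a} ↔ b ∈ I := mem_sd_ne hb
      have e2 : a ∈ I ∆ {b} ↔ a ∈ I := mem_sd_ne hb.symm
      by_cases ha : a ∈ I
      · rw [if_neg (fun h => h.1 ha), if_neg (fun h => h.2 (e2.mpr ha)), add_zero]
      · by_cases hb' : b ∈ I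
        · rw [if_pos ⟨ha, e1.mpr hb'⟩, if_pos ⟨hb', fun h => ha (e2.mp h)⟩, Derivation.leibniz,
            pderiv_X_of_ne (fun h => hb (hc h).symm), smul_zero, add_zero, smul_eq_mul,
            symmDiff_right_comm I {b} {a}, sg_comm I hb.symm]
          ring
        · rw [if_neg (fun h => hb' (e1.mp h.2)), if_neg (fun h => hb' h.1), add_zero]
    · intro h
      exact absurd (Finset.mem_univ _) h
  rw [Finset.sum_congr rfl fun a _ => h3 a, Finset.sum_add_distrib]
  congr 1
  rw [Finset.sum_ite_mem, Finset.univ_inter, Finset.sum_const, nsmul_eq_mul]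

/-- coefficientwise multiplication -/
noncomputable def scl (g : (σ →₀ ℕ) → ℂ) : MvPolynomial σ ℂ →ₗ[ℂ] MvPolynomial σ ℂ :=
  (basisMonomials σ ℂ).constr ℂ fun m => monomial m (g m)

theorem scl_monomial (g : (σ →₀ ℕ) → ℂ) (m : σ →₀ ℕ) (r : ℂ) :
    scl g (monomial m r) = monomial m (g m * r) := by
  have h1 : monomial m r = r • basisMonomials σ ℂ m := by
    rw [coe_basisMonomials, smul_monomial, smul_eq_mul, mul_one]
  rw [h1, map_smul, scl, Module.Basis.constr_basis, smul_monomial, smul_eq_mul, mul_comm]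

/-- the weight -/
noncomputable def wt (c : ι → σ) (m : σ →₀ ℕ) : ℂ := ∑ a, (m (c a) : ℂ)

theorem scl_euler (c : ι → σ) {n : ℕ} (hn : 1 ≤ n) (f : MvPolynomial σ ℂ) :
    (∑ a, X (c a) * pderiv (c a) (scl (fun m => (wt c m + n)⁻¹) f)) +
      (n : MvPolynomial σ ℂ) * scl (fun m => (wt c m + n)⁻¹) f = f := by
  induction f using MvPolynomial.induction_on' with
  | monomial m r =>
    rw [scl_monomial]
    simp only [X_mul_pderiv_monomial]
    rw [← Finset.sum_smul, ← nsmul_eq_mul, ← add_smul, ← map_nsmul]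
    congr 1
    have h : wt c m + n ≠ 0 := by
      have h1 : wt c m + n = ((∑ a, m (c a) + n : ℕ) : ℂ) := by
        unfold wt
        push_cast
        rfl
      rw [h1]
      exact_mod_cast (by omega)
    have h2 : ((∑ a, m (c a) + n : ℕ) : ℂ) = wt c m + n := by
      unfold wt
      push_cast
      rfl
    rw [nsmul_eq_mul, h2]
    field_simp
  | add p q hp hq =>
    simp only [map_add, mul_add, Finset.sum_add_distrib]
    linear_combination hp + hq

theorem scl_X (c : ι → σ) (hc : Function.Injective c) (t : ℂ) (a : ι) (f : MvPolynomial σ ℂ) :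
    X (c a) * scl (fun m => (wt c m + t)⁻¹) f =
      scl (fun m => (wt c m + (t - 1))⁻¹) (X (c a) * f) := by
  classical
  induction f using MvPolynomial.induction_on' with
  | monomial m r =>
    rw [scl_monomial, X, monomial_mul, monomial_mul, scl_monomial, one_mul, one_mul]
    congr 2
    have h : wt c (Finsupp.single (c a) 1 + m) = 1 + wt c m := by
      unfold wt
      simp only [Finsupp.add_apply, Nat.cast_add, Finset.sum_add_distrib]
      congr 1
      rw [Finset.sum_eq_single a]
      · simp
      · intro b _ hb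
        rw [Finsupp.single_eq_of_ne, Nat.cast_zero]
        intro e
        exact hb (hc e)
      · intro h
        exact absurd (Finset.mem_univ _) h
    rw [h]
    congr 1
    ring
  | add p q hp hq =>
    simp only [map_add, mul_add]
    linear_combination hp + hq

theorem scl_sg (g : (σ →₀ ℕ) → ℂ) (a : ι) (I : Finset ι) (f : MvPolynomial σ ℂ) :
    scl g (sg _ a I * f) = sg _ a I * scl g f := by
  unfold sg
  rcases neg_one_pow_eq_or (MvPolynomial σ ℂ) (Finset.filter (· < a) I).card with h | h <;>
    rw [h] <;> simp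

/-- exactness of the Koszul complex of some of the variables -/
theorem kos_X (c : ι → σ) (hc : Function.Injective c) {n : ℕ} (hn : 1 ≤ n)
    (z : Finset ι → MvPolynomial σ ℂ) (hz : ∀ I, I.card ≠ n → z I = 0)
    (h : kop (fun a => X (c a)) 0 z = 0) :
    ∃ y, (∀ I : Finset ι, I.card ≠ n + 1 → y I = 0) ∧ kop (fun a => X (c a)) 0 y = z := by
  let g : Finset ι → MvPolynomial σ ℂ := fun I => scl (fun m => (wt c m + n)⁻¹) (z I)
  have hg : kop (fun a => X (c a)) 0 g = 0 := by
    funext I
    have h1 : kop (fun a => X (c a)) 0 g I =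
        scl (fun m => (wt c m + (n - 1))⁻¹) (kop (fun a => X (c a)) 0 z I) := by
      unfold kop
      rw [map_sum]
      refine Finset.sum_congr rfl fun a _ => ?_
      rw [mul_assoc, mul_assoc, scl_sg]
      congr 1
      by_cases ha : a ∈ I
      · simp [ha]
      · simp only [ha, if_false]
        exact scl_X c hc _ a _
    rw [h1, h]
    simp
  refine ⟨hop c g, fun I hI => ?_, ?_⟩
  · unfold hop
    refine Finset.sum_eq_zero fun a _ => ?_
    split_ifs with ha
    · simp only [g]
      rw [hz _ (fun hc => hI (by rw [← card_sd_mem ha, hc]))]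
      simp
    · rfl
  · funext I
    have h1 := euler c hc g I
    have h2 : hop c (kop (fun a => X (c a)) 0 g) I = 0 := by
      rw [hg]
      unfold hop
      simp
    rw [h2, add_zero] at h1
    rw [h1]
    by_cases hI : I.card = n
    · rw [hI]
      exact scl_euler c hn (z I)
    · simp only [g, hz I hI]
      simp

/-- exactness after a change of coordinates -/
theorem kos_l (c : ι → σ) (hc : Function.Injective c)
    (φ : MvPolynomial σ ℂ ≃ₐ[ℂ] MvPolynomial σ ℂ) (l : ι → MvPolynomial σ ℂ)
    (hl : ∀ a, φ (X (c a)) = l a) {n : ℕ} (hn : 1 ≤ n)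
    (z : Finset ι → MvPolynomial σ ℂ) (hz : ∀ I, I.card ≠ n → z I = 0) (h : kop l 0 z = 0) :
    ∃ y, (∀ I : Finset ι, I.card ≠ n + 1 → y I = 0) ∧ kop l 0 y = z := by
  have hs : ∀ (a : ι) (I : Finset ι), φ (sg _ a I) = sg _ a I := by
    intro a I
    simp [sg]
  have key : ∀ y : Finset ι → MvPolynomial σ ℂ,
      kop l 0 (fun I => φ (y I)) = fun I => φ (kop (fun a => X (c a)) 0 y I) := by
    intro y
    funext I
    simp only [kop, map_sum, map_mul, hs]
    refine Finset.sum_congr rfl fun a _ => ?_
    split_ifs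
    · simp
    · rw [hl]
  obtain ⟨y, hy, e⟩ := kos_X c hc hn (fun I => φ.symm (z I)) (fun I hI => by
    simp [hz I hI]) (by
      funext I
      apply φ.injective
      have := congrFun (key fun I => φ.symm (z I)) I
      simp only [AlgEquiv.apply_symm_apply] at this
      rw [← this, h]
      simp)
  refine ⟨fun I => φ (y I), fun I hI => by simp [hy I hI], ?_⟩
  rw [key, e]
  simp

end euler

end Vale.Agent.P287Z.O.H443
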