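import Vale.Agent.P287Z.O.H443.Kz
import Mathlib.RingTheory.MvPolynomial.EulerIdentity
import Mathlib.LinearAlgebra.Matrix.ToLin
import Mathlib.LinearAlgebra.Matrix.NonsingularInverse

/-! # Linear forms of a point: change of coordinates (block K3) -/

open MvPolynomial

namespace Vale.Agent.P287Z.O.H443

open H826

abbrev R5 : Type := MvPolynomial (Fin 6) ℂ

/-- homogeneous component of a product with a homogeneous factor -/
theorem whc_mul {σ : Type} {w : σ → ℤ} {l g : MvPolynomial σ ℂ} {m : ℤ} (n : ℤ)
    (hl : l.IsWeightedHomogeneous w m) :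
    weightedHomogeneousComponent w (m + n) (l * g) = l * weightedHomogeneousComponent w n g := by
  classical
  ext d
  rw [coeff_weightedHomogeneousComponent, coeff_mul, coeff_mul]
  split_ifs with h
  · refine Finset.sum_congr rfl fun p hp => ?_
    rw [coeff_weightedHomogeneousComponent]
    by_cases h1 : coeff p.1 l = 0
    · rw [h1, zero_mul, zero_mul]
    · have h2 := hl h1
      rw [Finset.mem_antidiagonal] at hp
      have h3 : Finsupp.weight w p.1 + Finsupp.weight w p.2 = Finsupp.weight w d := by
        rw [← map_add, hp]
      rw [if_pos (by omega)]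
  · symm
    refine Finset.sum_eq_zero fun p hp => ?_
    rw [coeff_weightedHomogeneousComponent]
    by_cases h1 : coeff p.1 l = 0
    · rw [h1, zero_mul]
    · have h2 := hl h1
      rw [Finset.mem_antidiagonal] at hp
      have h3 : Finsupp.weight w p.1 + Finsupp.weight w p.2 = Finsupp.weight w d := by
        rw [← map_add, hp]
      rw [if_neg (by omega), mul_zero]

theorem whc_self {σ : Type} {w : σ → ℤ} {f : MvPolynomial σ ℂ} {m : ℤ}
    (hf : f.IsWeightedHomogeneous w m) : weightedHomogeneousComponent w m f = f :=
  hf.weightedHomogeneousComponent_same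

end Vale.Agent.P287Z.O.H443
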