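import Vale.Agent.P287Z.O.H443.Ab
import Vale.Agent.P287Z.O.L.B2

/-! # Resolutions in `GA W` and their images in `D(Coh X)` (block B11) -/

open CategoryTheory Limits MvPolynomial

namespace Vale.Agent.P287Z.O.H443

open V L

variable {W : MvPolynomial (Fin 6) ℂ}

/-- a map of graded modules which is surjective in large degrees becomes an epimorphism -/
theorem piA_epi {M N : GA W} (f : M ⟶ N)
    (h : ∃ B : ℤ, ∀ a ≥ B, Function.Surjective (f.hom.app ⟨a⟩)) : Epi ((piA W).map f) := by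
  rw [ObjectProperty.SerreClassLocalization.epi_map_iff (piA W) (tors W)]
  obtain ⟨B, h⟩ := h
  refine ⟨B, fun a ha => ⟨fun x y => ?_⟩⟩
  have key : ∀ x : (cokernel f).obj.obj ⟨a⟩, x = 0 := by
    intro x
    obtain ⟨y, rfl⟩ := GA_app_surjective W (cokernel.π f) a x
    obtain ⟨z, rfl⟩ := h a ha y
    have h1 : f ≫ cokernel.π f = 0 := cokernel.condition f
    have h2 := congrArg (fun g => g.hom.app ⟨a⟩ z) h1
    exact h2
  rw [key x, key y]

/-- Resolutions up to torsion: the image of a bounded above complex of graded modules. -/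
theorem res_iso (K : CochainComplex (GA W) ℤ) (m n : ℤ) (hmn : m + 1 = n) [K.IsStrictlyLE n]
    (M : GA W) (ε : K.X n ⟶ M)
    (hex : ∀ k l r : ℤ, k + 1 = l → l + 1 = r → l < n → ∀ (a : ℤ) (v : (K.X l).obj.obj ⟨a⟩),
      (K.d l r).hom.app ⟨a⟩ v = 0 → ∃ u : (K.X k).obj.obj ⟨a⟩, (K.d k l).hom.app ⟨a⟩ u = v)
    (w : K.d m n ≫ ε = 0)
    (h0 : ∀ (a : ℤ) (v : (K.X n).obj.obj ⟨a⟩), ε.hom.app ⟨a⟩ v = 0 →
      ∃ u : (K.X m).obj.obj ⟨a⟩, (K.d m n).hom.app ⟨a⟩ u = v)
    (hT : ∃ B : ℤ, ∀ a ≥ B, Function.Surjective (ε.hom.app ⟨a⟩)) :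
    Nonempty ((QPi W).obj K ≅ (DerivedCategory.singleFunctor (Coh W) n).obj ((piA W).obj M)) := by
  let F := (piA W).mapHomologicalComplex (ComplexShape.up ℤ)
  let K' : CochainComplex (Coh W) ℤ := F.obj K
  have hLE : CochainComplex.IsStrictlyLE K' n := by
    rw [CochainComplex.isStrictlyLE_iff]
    intro i hi
    exact (piA W).map_isZero (K.isZero_of_isStrictlyLE n i hi)
  let ε' : K'.X n ⟶ (piA W).obj M := (piA W).map ε
  have hepi : Epi ε' := piA_epi ε hT
  refine single_of_exact K' m n hmn ((piA W).obj M) ε' ?_ ?_ ?_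
  · intro k hk
    rw [HomologicalComplex.exactAt_iff' _ (k - 1) k (k + 1) (by simp) (by simp)]
    have h1 : (K.sc' (k - 1) k (k + 1)).Exact :=
      GA_exact_of_apply W fun a v hv => hex (k - 1) k (k + 1) (by lia) rfl hk a v hv
    exact h1.map (piA W)
  · change (piA W).map (K.d m n) ≫ (piA W).map ε = 0
    rw [← Functor.map_comp, w, Functor.map_zero]
  · have h1 : (ShortComplex.mk (K.d m n) ε w).Exact := GA_exact_of_apply W fun a v hv => h0 a v hv
    exact h1.map (piA W)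

end Vale.Agent.P287Z.O.H443
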