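import Vale.Agent.P287Z.O.N.Ex2
import Vale.Agent.P287Z.O.H443.Res
import Mathlib.RingTheory.MvPolynomial.EulerIdentity

/-! # The structure sheaf as the image of the stabilized residue field (block B11) -/

open CategoryTheory Limits MvPolynomial
open scoped symmDiff

namespace Vale.Agent.P287Z.O.H443

open V L H826

variable {W : MvPolynomial (Fin 6) ℂ}

theorem kz_hg {ι : Type} [LinearOrder ι] [Fintype ι] {l q : ι → R5}
    (hl : ∀ a, (l a).IsHomogeneous 1) (hq : ∀ a, (q a).IsHomogeneous 2) (c : ℤ) (I J : Finset ι) :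
    Hg (3 + (c - 1 * (J.card : ℤ)) - (c - 1 * (I.card : ℤ))) (kz l q I J) := by
  have hs : ∀ (a : ι) (g : R5) (n : ℤ), Hg n g → Hg n (sg _ a J * g) := by
    intro a g n hg
    unfold sg
    rcases neg_one_pow_eq_or R5 (Finset.filter (· < a) J).card with h | h
    · rw [h, one_mul]; exact hg
    · rw [h, neg_one_mul]; exact hga_neg hg
  unfold kz
  refine hga_sum _ fun a _ => ?_
  split_ifs with h h'
  · refine hs _ _ _ (hg_of (hl a) ?_)
    have := card_sd_mem h'
    rw [← h] at this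
    rw [← this]
    push_cast
    ring
  · refine hs _ _ _ (hg_of (hq a) ?_)
    have := card_sd_notMem h'
    rw [← h] at this
    rw [this]
    push_cast
    ring
  · exact hga_zero _

/-- the stabilized residue field -/
theorem exists_kos5 (hW : W.IsHomogeneous 3) (c : ℤ) :
    ∃ (q : Fin 6 → R5) (E : GMF W 64) (e : Finset (Fin 6) ≃ Fin 64),
      (∀ a, (q a).IsHomogeneous 2) ∧ W = ∑ a, X a * q a ∧
      (∀ I, E.p (e I) = c - 1 * (I.card : ℤ)) ∧
      ∀ I J, E.d (e J) (e I) = kz (fun a => X a) q J I := by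
  let q : Fin 6 → R5 := fun a => C (3 : ℂ)⁻¹ * pderiv a W
  have hq : ∀ a, (q a).IsHomogeneous 2 := by
    intro a
    have h1 : (pderiv a W).IsHomogeneous 2 := hW.pderiv
    have := (isHomogeneous_C (Fin 6) (3 : ℂ)⁻¹).mul h1
    rwa [zero_add] at this
  have hWq : W = ∑ a, X a * q a := by
    have h1 := hW.sum_X_mul_pderiv
    have h2 : ∑ a, X a * q a = C (3 : ℂ)⁻¹ * ∑ a, X a * pderiv a W := by
      rw [Finset.mul_sum]
      refine Finset.sum_congr rfl fun a _ => ?_
      simp only [q]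
      ring
    have h3 : (3 : ℕ) • W = C (3 : ℂ) * W := by
      rw [nsmul_eq_mul]
      rfl
    rw [h2, h1, h3, ← mul_assoc, ← C_mul]
    norm_num
  have hcard : Fintype.card (Finset (Fin 6)) = 64 := by simp
  let e : Finset (Fin 6) ≃ Fin 64 := Fintype.equivFinOfCardEq hcard
  refine ⟨q, ⟨fun i => c - 1 * ((e.symm i).card : ℤ), Matrix.reindex e e (kz (fun a => X a) q), ?_, ?_⟩,
    e, hq, hWq, ?_, ?_⟩
  · intro i j
    exact kz_hg (fun a => isHomogeneous_X _ a) hq c _ _
  · rw [Matrix.reindex_apply, Matrix.submatrix_mul_equiv, kz_sq, ← hWq]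
    ext i j
    simp [Matrix.one_apply]
  · intro I
    simp
  · intro I J
    simp

theorem kop_empty {ι : Type} [LinearOrder ι] [Fintype ι] {R : Type} [CommRing R] (l q : ι → R)
    (z : Finset ι → R) : kop l q z ∅ = ∑ b, l b * z {b} := by
  unfold kop
  refine Finset.sum_congr rfl fun b _ => ?_
  rw [if_neg (Finset.notMem_empty b)]
  have h1 : (∅ : Finset ι) ∆ {b} = {b} := by
    rw [sd_notMem (Finset.notMem_empty b)]
    rfl
  rw [h1]
  simp [sg]

theorem isHom_of_hg {d : ℕ} {f : R5} (hf : Hg (2 * (d : ℤ)) f) : f.IsHomogeneous d := by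
  intro m hm
  have h1 := (hg_iff.1 hf) m (mem_support_iff.mpr hm)
  have h2 : m.degree = d := by omega
  rw [← h2, Finsupp.weight_apply, Finsupp.degree_apply]
  simp [Finsupp.sum]

theorem mem_vars {d : ℕ} (hd : 1 ≤ d) {f : R5} (hf : Hg (2 * (d : ℤ)) f) :
    ∃ g : Fin 6 → R5, (∀ a, Hg (2 * (d : ℤ) - 2) (g a)) ∧ f = ∑ a, X a * g a := by
  have h0 := isHom_of_hg hf
  refine ⟨fun a => C (d : ℂ)⁻¹ * pderiv a f, fun a => ?_, ?_⟩
  · have h1 : (pderiv a f).IsHomogeneous (d - 1) := h0.pderiv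
    have := (isHomogeneous_C (Fin 6) (d : ℂ)⁻¹).mul h1
    rw [zero_add] at this
    exact hg_of this (by omega)
  · have h1 := h0.sum_X_mul_pderiv
    have h2 : ∑ a, X a * (C (d : ℂ)⁻¹ * pderiv a f) = C (d : ℂ)⁻¹ * ∑ a, X a * pderiv a f := by
      rw [Finset.mul_sum]
      refine Finset.sum_congr rfl fun a _ => ?_
      ring
    have h3 : d • f = C (d : ℂ) * f := by
      rw [nsmul_eq_mul]
      simp
    have h4 : (d : ℂ) ≠ 0 := by exact_mod_cast (by omega : d ≠ 0)
    rw [h2, h1, h3, ← mul_assoc, ← C_mul, inv_mul_cancel₀ h4, C_1, one_mul]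

section

variable {E : GMF W 64} {e : Finset (Fin 6) ≃ Fin 64}

/-- the augmentation `A(-1)^3 → A` -/
noncomputable def au5 (e : Finset (Fin 6) ≃ Fin 64) : Matrix (Fin 1) (Fin 64) R5 :=
  fun _ j => ∑ b, if e.symm j = {b} then X b else 0

theorem au5_mulVec (v : Fin 64 → R5) (i : Fin 1) :
    (au5 e).mulVec v i = ∑ b, X b * v (e {b}) := by
  unfold Matrix.mulVec dotProduct au5
  rw [← e.sum_comp]
  simp only [Equiv.symm_apply_apply, Finset.sum_mul]
  rw [Finset.sum_comm]
  refine Finset.sum_congr rfl fun b _ => ?_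
  rw [Finset.sum_eq_single {b}]
  · rw [if_pos rfl]
  · intro I _ hI
    rw [if_neg hI, zero_mul]
  · intro h
    exact absurd (Finset.mem_univ _) h

/-- the selection: the Tate resolution of the maximal ideal, twisted by `s` -/
def KS (s : ℤ) (k x : ℤ) : Prop := (-2 * k - 2 * s ≤ x ∧ k ≤ -1) ∨ 0 < x

instance (s k : ℤ) : DecidablePred (KS s k) := fun x =>
  inferInstanceAs (Decidable ((-2 * k - 2 * s ≤ x ∧ k ≤ -1) ∨ 0 < x))

theorem cv_KS (s : ℤ) : O.N.Cv (KS s) := by
  intro k l r x y z h1 h2 h3 h4 h5 h6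
  unfold KS at *
  omega

theorem minF {c : ℤ} {q : Fin 6 → R5} (hp : ∀ I, E.p (e I) = c - 1 * (I.card : ℤ))
    (hd : ∀ I J, E.d (e J) (e I) = kz (fun a => X a) q J I) : O.N.MinF E := by
  intro i j h
  obtain ⟨J, rfl⟩ := e.surjective i
  obtain ⟨I, rfl⟩ := e.surjective j
  rw [hp, hp] at h
  rw [hd]
  unfold kz
  refine Finset.sum_eq_zero fun a _ => if_neg fun h1 => ?_
  have h2 := card_sd I a
  rw [← h1] at h2
  omega

theorem au5_hg {s : ℤ} (hp : ∀ I, E.p (e I) = -2 * s - 1 * (I.card : ℤ)) :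
    HgM (qsel E (KS s (-1)) (-1)) (fun _ : Fin 1 => -2 * s) (au5 e) := by
  intro i j
  obtain ⟨I, rfl⟩ := e.surjective j
  unfold au5
  simp only [Equiv.symm_apply_apply]
  refine hga_sum _ fun b _ => ?_
  split_ifs with h
  · unfold qsel
    rw [hp, h, Finset.card_singleton, if_pos (by unfold KS; omega)]
    have h2 : -2 * s - 1 * ((1 : ℕ) : ℤ) - 3 * -1 - -2 * s = 2 := by
      push_cast
      ring
    rw [h2]
    exact hga_X b
  · exact hga_zero _

theorem k_res [FrOK W] {s : ℤ} (hs : 3 ≤ s) (hW0 : W ≠ 0) {q : Fin 6 → R5} (hq : ∀ a, (q a).IsHomogeneous 2)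
    (hW : W = ∑ a, X a * q a) (hp : ∀ I, E.p (e I) = -2 * s - 1 * (I.card : ℤ))
    (hd : ∀ I J, E.d (e J) (e I) = kz (fun a => X a) q J I) :
    Nonempty ((QPi W).obj (O.N.TQ (minF hp hd) (KS s) (cv_KS s)) ≅ (DerivedCategory.singleFunctor (Coh W) (-1)).obj
      ((piA W).obj (FrA W (fun _ : Fin 1 => -2 * s)))) := by
  let TK := O.N.TQ (minF hp hd) (KS s) (cv_KS s)
  have hl : ∀ a : Fin 6, (X a : R5).IsHomogeneous 1 := fun a => isHomogeneous_X _ a
  have HK := fun (n : ℕ) (hn : 1 ≤ n) (z : Finset (Fin 6) → R5)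
    (hz : ∀ I, I.card ≠ n → z I = 0) (h0 : kop (fun a => X a) 0 z = 0) =>
      kos_X id Function.injective_id hn z hz h0
  have hcard : ∀ I : Finset (Fin 6), I.card ≤ 6 := fun I => by
    simpa using Finset.card_le_univ I
  have hsurj : ∀ j, ∃ I, e I = j := e.surjective
  have hLE : (TK).IsStrictlyLE (-1) := by
    rw [CochainComplex.isStrictlyLE_iff]
    intro k hk
    refine TX_isZero E _ k fun j => ?_
    obtain ⟨I, rfl⟩ := hsurj j
    rw [hp]
    have := hcard I
    unfold KS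
    omega
  let ε : (TK).X (-1) ⟶ FrA W (fun _ : Fin 1 => -2 * s) := matA W _ (au5_hg hp)
  have hT1 : ∀ (k r : ℤ) (h : k + 1 = r) (a : ℤ) (u : ((TK).X k).obj.obj ⟨a⟩),
      ((TK).d k r).hom.app ⟨a⟩ u = (O.N.Qd E (KS s k) (KS s r) k r h).hom.app ⟨a⟩ u := by
    intro k r h a u
    rw [O.N.TQ_d (minF hp hd) (KS s) (cv_KS s) k r h]
    rfl
  have hε : ∀ (a : ℤ) (v : Fin 64 → R5) (hv : ∀ i, Hg (2 * a - qsel E (KS s (-1)) (-1) i) (v i)),
      ε.hom.app ⟨a⟩ (FrO.mk W v hv) =
        FrO.mk W ((au5 e).mulVec v) ((au5_hg hp).mulVec hv) := fun a v hv => rfl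
  refine res_iso (TK) (-2) (-1) (by norm_num) _ ε ?_ ?_ ?_ ?_
  · intro k₁ k₂ k₃ h12 h23 hk a v hv
    obtain ⟨m, hm⟩ : ∃ m : ℕ, k₂ = -(m : ℤ) := ⟨(-k₂).toNat, by omega⟩
    have hv' := (hT1 k₂ k₃ h23 a v).symm.trans hv
    obtain ⟨u, hu⟩ := ex_at2 (P₁ := KS s k₁) (P₂ := KS s k₂) (P₃ := KS s k₃) (by omega) hp hd hl hq hW hW0 HK (n := m)
      (by omega) h12 h23 hm
      (fun J h1 h2 => by have := hcard J; unfold KS; omega)
      (fun I h1 h2 => by have := hcard I; unfold KS at h2; omega)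
      (fun I h1 h2 => by have := hcard I; unfold KS; omega) a v hv'
    exact ⟨u, (hT1 k₁ k₂ h12 a u).trans hu⟩
  · apply ObjectProperty.hom_ext
    ext a y
    change ε.hom.app ⟨a.deg⟩ (((TK).d (-2) (-1)).hom.app ⟨a.deg⟩ y) = 0
    refine (congrArg _ (hT1 (-2) (-1) (by norm_num) a.deg y)).trans ?_
    obtain ⟨v, hv, rfl⟩ := FrO.mk_surj W (q := qsel E (KS s (-2)) (-2)) y
    have hv1 := T_val E e _ hp (KS s (-2)) (-2) a.deg v hv
    change FrO.mk W ((au5 e).mulVec ((mask (fun i => KS s (-1) (E.p i - 3 * (-1)))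
      (fun j => KS s (-2) (E.p j - 3 * (-2))) E.d).mulVec v)) _ = 0
    refine (FrO.mk_eq_zero W (q := fun _ : Fin 1 => -2 * s)).2 fun i => ?_
    rw [au5_mulVec]
    have h1 : ∑ b, X b * (mask (fun i => KS s (-1) (E.p i - 3 * (-1)))
        (fun j => KS s (-2) (E.p j - 3 * (-2))) E.d).mulVec v (e {b}) = W * v (e ∅) := by
      have h2 := congrFun (kop_kop (fun a => X a) q (fun I => v (e I))) ∅
      rw [kop_empty, Pi.smul_apply, smul_eq_mul, ← hW] at h2
      rw [← h2]
      refine Finset.sum_congr rfl fun b _ => ?_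
      rw [mask_val2 E e _ (fun a => X a) q hp hd (KS s (-2)) (KS s (-1)) (-2) (-1) v
        (fun I hI => (hv1 I).1 hI) {b}, if_pos (by rw [Finset.card_singleton]; unfold KS; omega)]
    rw [h1]
    exact dvd_mul_right _ _
  · intro a u hu
    obtain ⟨v, hv, rfl⟩ := FrO.mk_surj W (q := qsel E (KS s (-1)) (-1)) u
    have h1 := (hε a v hv).symm.trans hu
    have h2 := (FrO.mk_eq_zero W (q := fun _ : Fin 1 => -2 * s)).1 h1 0
    rw [au5_mulVec] at h2
    obtain ⟨y, hy⟩ := ex_core2 (P₁ := KS s (-2)) (P₂ := KS s (-1)) (by omega) hp hd hl hq hW hW0 HK (n := 1)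
      le_rfl (k₁ := -2) (k₂ := -1) (by norm_num) (by norm_num)
      (fun I h1 h2 => by have := hcard I; unfold KS at h2; omega)
      (fun I h1 h2 => by have := hcard I; unfold KS; omega) a v hv
      (fun J hJ => by
        have hJ0 : J = ∅ := Finset.card_eq_zero.mp (by omega)
        rw [hJ0, kop_empty]
        exact h2)
    exact ⟨y, (hT1 (-2) (-1) (by norm_num) a y).trans hy⟩
  · refine ⟨1 - s, fun a ha u => ?_⟩
    obtain ⟨f, hf, rfl⟩ := FrO.mk_surj W (q := fun _ : Fin 1 => -2 * s) u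
    obtain ⟨d, rfl⟩ : ∃ d : ℕ, a = d - s := ⟨(a + s).toNat, by omega⟩
    obtain ⟨g, hg1, hg2⟩ := mem_vars (d := d) (by omega) (f := f 0) (by
      have := hf 0
      rwa [show 2 * ((d : ℤ) - s) - -2 * s = 2 * d by ring] at this)
    let y : Fin 64 → R5 := fun j => ∑ b, if e.symm j = {b} then g b else 0
    have hy1 : ∀ b, y (e {b}) = g b := by
      intro b
      simp only [y, Equiv.symm_apply_apply]
      rw [Finset.sum_eq_single b]
      · rw [if_pos rfl]
      · intro b' _ hb'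
        rw [if_neg]
        intro h
        exact hb' (Finset.singleton_injective h).symm
      · intro h
        exact absurd (Finset.mem_univ _) h
    have hy : ∀ j, Hg (2 * ((d : ℤ) - s) - qsel E (KS s (-1)) (-1) j) (y j) := by
      intro j
      obtain ⟨I, rfl⟩ := hsurj j
      simp only [y, Equiv.symm_apply_apply]
      refine hga_sum _ fun b _ => ?_
      split_ifs with h
      · unfold qsel
        rw [hp, h, Finset.card_singleton, if_pos (by unfold KS; omega)]
        have h2 : 2 * ((d : ℤ) - s) - (-2 * s - 1 * ((1 : ℕ) : ℤ) - 3 * -1) = 2 * d - 2 := by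
          push_cast
          ring
        rw [h2]
        exact hg1 b
      · exact hga_zero _
    refine ⟨FrO.mk W y hy, (hε (d - s) y hy).trans ?_⟩
    refine FrO.mk_congr W (funext fun i => ?_)
    have hi : i = 0 := Subsingleton.elim _ _
    subst hi
    rw [au5_mulVec, hg2]
    simp only [hy1]

end

end Vale.Agent.P287Z.O.H443
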