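import Vale.Agent.P287Z.O.H443.Lin

/-! # The Shamash-Tate resolution (block K3) -/

open MvPolynomial
open scoped symmDiff

namespace Vale.Agent.P287Z.O.H443

open H826

section gen

variable {ι : Type} [LinearOrder ι] [Fintype ι] {R : Type} [CommRing R]

/-- values of the Koszul operator only depend on the neighbours -/
theorem kop_zero (l q : ι → R) (z : Finset ι → R) (I : Finset ι)
    (h : ∀ a, z (I ∆ {a}) = 0) : kop l q z I = 0 := by
  unfold kop
  exact Finset.sum_eq_zero fun a _ => by rw [h a, mul_zero]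

theorem card_sd (I : Finset ι) (a : ι) :
    (I ∆ {a}).card + 1 = I.card ∨ (I ∆ {a}).card = I.card + 1 := by
  by_cases h : a ∈ I
  · exact Or.inl (card_sd_mem h)
  · exact Or.inr (card_sd_notMem h)

/-- **Shamash-Tate**, abstract form -/
theorem shamash [IsDomain R] [CharZero R] (l q : ι → R) (hW : ∑ a, l a * q a ≠ 0)
    (HK : ∀ n : ℕ, 1 ≤ n → ∀ z : Finset ι → R, (∀ I, I.card ≠ n → z I = 0) → kop l 0 z = 0 →
      ∃ y : Finset ι → R, (∀ I, I.card ≠ n + 1 → y I = 0) ∧ kop l 0 y = z)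
    (n : ℕ) (hn : 1 ≤ n) (z : Finset ι → R)
    (hz : ∀ I, ¬ (I.card ≤ n ∧ (I.card + n) % 2 = 0) → z I = 0)
    (hd : ∀ J : Finset ι, J.card + 1 ≤ n → (∑ a, l a * q a) ∣ kop l q z J) :
    ∃ y : Finset ι → R, (∀ I, ¬ (I.card ≤ n + 1 ∧ (I.card + n) % 2 = 1) → y I = 0) ∧
      ∀ J : Finset ι, J.card ≤ n → kop l q y J = z J := by
  classical
  choose u hu using hd
  let v : Finset ι → R := fun J =>
    if h : J.card + 1 ≤ n then (if (J.card + n) % 2 = 1 then u J h else 0) else 0
  have hv1 : ∀ J, ¬ (J.card + 1 ≤ n ∧ (J.card + n) % 2 = 1) → v J = 0 := by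
    intro J hJ
    simp only [v]
    split_ifs with h1 h2
    · exact absurd ⟨h1, h2⟩ hJ
    · rfl
    · rfl
  have hv2 : ∀ J : Finset ι, J.card + 1 ≤ n → kop l q z J = (∑ a, l a * q a) * v J := by
    intro J hJ
    by_cases h2 : (J.card + n) % 2 = 1
    · simp only [v, dif_pos hJ, if_pos h2]
      exact hu J hJ
    · rw [hv1 J (fun h => h2 h.2), mul_zero]
      refine kop_zero l q z J fun a => hz _ ?_
      rcases card_sd J a with h | h <;> omega
  let z' : Finset ι → R := z - kop l q v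
  have hDz' : ∀ J : Finset ι, J.card + 1 ≤ n → kop l q z' J = 0 := by
    intro J hJ
    simp only [z']
    rw [kop_sub, kop_kop, Pi.sub_apply, Pi.smul_apply, smul_eq_mul, hv2 J hJ, sub_self]
  have hz'1 : ∀ I : Finset ι, I.card + 2 ≤ n → z' I = 0 := by
    intro I hI
    have h1 := congrFun (kop_kop l q z') I
    rw [Pi.smul_apply, smul_eq_mul, kop_zero l q (kop l q z') I (fun a => hDz' _ (by
      rcases card_sd I a with h | h <;> omega))] at h1
    rcases mul_eq_zero.mp h1.symm with h2 | h2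
    · exact absurd h2 hW
    · exact h2
  have hz'2 : ∀ I : Finset ι, I.card ≠ n → z' I = 0 := by
    intro I hI
    by_cases h1 : I.card + 2 ≤ n
    · exact hz'1 I h1
    · simp only [z', Pi.sub_apply]
      rw [hz I (by omega), kop_zero l q v I (fun a => hv1 _ (by
        rcases card_sd I a with h | h <;> omega)), sub_zero]
  have hK : kop l 0 z' = 0 := by
    funext J
    by_cases hJ : J.card + 1 = n
    · have h1 := hDz' J (by omega)
      rw [Pi.zero_apply, ← h1]
      unfold kop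
      refine Finset.sum_congr rfl fun a _ => ?_
      by_cases ha : a ∈ J
      · rw [hz'2 (J ∆ {a}) (by have := card_sd_mem ha; omega), mul_zero, mul_zero]
      · rw [if_neg ha, if_neg ha]
    · unfold kop
      refine Finset.sum_eq_zero fun a _ => ?_
      by_cases ha : a ∈ J
      · rw [if_pos ha, Pi.zero_apply, mul_zero, zero_mul]
      · rw [hz'2 (J ∆ {a}) (by have := card_sd_notMem ha; omega), mul_zero]
  obtain ⟨y0, hy0, hy⟩ := HK n hn z' hz'2 hK
  refine ⟨v + y0, fun I hI => ?_, fun J hJ => ?_⟩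
  · rw [Pi.add_apply, hv1 I (by omega), hy0 I (by
      intro h
      apply hI
      omega), add_zero]
  · have h1 : kop l q y0 J = z' J := by
      rw [← hy]
      unfold kop
      refine Finset.sum_congr rfl fun a _ => ?_
      by_cases ha : a ∈ J
      · rw [hy0 (J ∆ {a}) (by have := card_sd_mem ha; omega), mul_zero, mul_zero]
      · rw [if_neg ha, if_neg ha]
    rw [kop_add, Pi.add_apply, h1]
    simp only [z', Pi.sub_apply]
    ring

end gen

theorem hg_odd {k : ℤ} (hk : k % 2 = 1) {f : R5} (hf : V.Hg k f) : f = 0 := by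
  ext d
  rw [coeff_zero]
  by_contra h
  have h1 := hf h
  rw [Finsupp.weight_apply, Finsupp.sum] at h1
  have h2 : ∑ i ∈ d.support, (d i) • (2 : ℤ) = 2 * ∑ i ∈ d.support, (d i : ℤ) := by
    rw [Finset.mul_sum]
    exact Finset.sum_congr rfl fun i _ => by rw [nsmul_eq_mul, mul_comm]
  rw [h2] at h1
  omega

theorem kop_whc {ι : Type} [LinearOrder ι] [Fintype ι] (l q : ι → R5) (hl : ∀ a, V.Hg 2 (l a))
    (hq : ∀ a, V.Hg 4 (q a)) (t : ℤ) (y : Finset ι → R5) (J : Finset ι) :
    kop l q (fun I => weightedHomogeneousComponent (fun _ => (2 : ℤ)) (t - 3 + 1 * (I.card : ℤ))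
      (y I)) J = weightedHomogeneousComponent (fun _ => (2 : ℤ)) (t + 1 * (J.card : ℤ))
        (kop l q y J) := by
  unfold kop
  rw [map_sum]
  refine Finset.sum_congr rfl fun a _ => ?_
  have hs : ∀ (m : ℤ) (g : R5), weightedHomogeneousComponent (fun _ => (2 : ℤ)) m
      (sg _ a J * g) = sg _ a J * weightedHomogeneousComponent (fun _ => (2 : ℤ)) m g := by
    intro m g
    unfold sg
    rcases neg_one_pow_eq_or R5 (Finset.filter (· < a) J).card with h | h <;> rw [h] <;> simp
  rw [mul_assoc, mul_assoc, hs]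
  congr 1
  by_cases ha : a ∈ J
  · rw [if_pos ha]
    have h1 := card_sd_mem ha
    have h2 : t + 1 * (J.card : ℤ) = 4 + (t - 3 + 1 * ((J ∆ {a}).card : ℤ)) := by
      rw [← h1]
      push_cast
      ring
    rw [h2, whc_mul _ (hq a)]
  · rw [if_neg ha]
    have h1 := card_sd_notMem ha
    have h2 : t + 1 * (J.card : ℤ) = 2 + (t - 3 + 1 * ((J ∆ {a}).card : ℤ)) := by
      rw [h1]
      push_cast
      ring
    rw [h2, whc_mul _ (hl a)]

/-- **Shamash-Tate**, graded form -/
theorem shamash_gr {ι : Type} [LinearOrder ι] [Fintype ι] {l q : ι → R5}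
    (hl : ∀ a, (l a).IsHomogeneous 1) (hq : ∀ a, (q a).IsHomogeneous 2)
    (hW : ∑ a, l a * q a ≠ 0)
    (HK : ∀ n : ℕ, 1 ≤ n → ∀ z : Finset ι → R5, (∀ I, I.card ≠ n → z I = 0) → kop l 0 z = 0 →
      ∃ y : Finset ι → R5, (∀ I, I.card ≠ n + 1 → y I = 0) ∧ kop l 0 y = z)
    (n : ℕ) (hn : 1 ≤ n) (t : ℤ) (ht : t % 2 = 0) (z : Finset ι → R5)
    (hz0 : ∀ I : Finset ι, n < I.card → z I = 0)
    (hz : ∀ I : Finset ι, V.Hg (t - 3 * n + 1 * (I.card : ℤ)) (z I))
    (hd : ∀ J : Finset ι, J.card + 1 ≤ n → (∑ a, l a * q a) ∣ kop l q z J) :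
    ∃ y : Finset ι → R5, (∀ I : Finset ι, n + 1 < I.card → y I = 0) ∧
      (∀ I : Finset ι, V.Hg (t - 3 * n - 3 + 1 * (I.card : ℤ)) (y I)) ∧
      ∀ J : Finset ι, J.card ≤ n → kop l q y J = z J := by
  obtain ⟨y, hy, hy1⟩ := shamash l q hW HK n hn z
    (fun I hI => by
      by_cases h1 : I.card ≤ n
      · exact hg_odd (by omega) (hz I)
      · exact hz0 I (by omega)) hd
  refine ⟨fun I => weightedHomogeneousComponent (fun _ => (2 : ℤ))
    (t - 3 * n - 3 + 1 * (I.card : ℤ)) (y I), fun I hI => ?_, fun I => ?_, fun J hJ => ?_⟩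
  · change weightedHomogeneousComponent (fun _ => (2 : ℤ)) _ (y I) = 0
    rw [hy I (by omega), map_zero]
  · exact weightedHomogeneousComponent_isWeightedHomogeneous _ _
  · rw [kop_whc l q (fun a => hg_of (hl a) (by norm_num)) (fun a => hg_of (hq a) (by norm_num)),
      hy1 J hJ, whc_self (hz J)]

end Vale.Agent.P287Z.O.H443
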